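import Crest.Agent.N255.Wt.A2

/-!
# Row 255 (helper76): `PVxZ` for the standard weights
-/

set_option autoImplicit false
set_option linter.unusedSectionVars false

noncomputable section

namespace N255.Wt

open Set Function N255.Dr N255.Dr.O Crest.Agent.N255.Tg Sum
open N255.Core (Wall Ok Xi Hi lin vw yi VxH)
open N255.Sl (Zn)

variable {p : ℕ} [Fact p.Prime] {Γ : Type} [AddCommGroup Γ] {δ : Γ} {s : Fin 3 → Type}
  [∀ i, Fintype (s i)] {w : ∀ i, Wall p Γ δ (s i)} {t : Fin 3 → Bool} {c n : ℕ}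

theorem vw_V (x0 : V w t) (La : ℕ) :
    vw w t La (vsV x0).em ((vsV x0).FV c) = (vsV x0).mw c La :=
  funext fun v => (vsV x0).vw_eq La (vsV_ok x0 v)

/-- A located vertex identity with the standard variables and weights. -/
structure PVxT (T : Ty w c n) (x0 : V w t) (κ α ι : Type) [Fintype α] where
  io : ∀ i, O p (ZMod p) (s i) →ₐ[ZMod p] O p (ZMod p) (V w t ⊕ B w t)
  near : ∀ i x, (w i).kd x ≠ some (!t i) → Hi ((vsV x0).oA c i) (N0 c + (w i).F x)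
    (io i (z x) - z (inl ((vsV x0).em (⟨i, x⟩, false))))
  far : ∀ i x, (w i).kd x = some (!t i) → Hi ((vsV x0).oA c i) (N0 c + (w i).F x) (io i (z x))
  hy : ∀ i x, (w i).kd x = none → io i (z x) - z (inl ((vsV x0).em (⟨i, x⟩, false))) ∈
    Ideal.span {f | ∃ y, (w i).kd y = none ∧ f = z (inl ((vsV x0).em (⟨i, y⟩, false)))} * mx
  cc : ∀ i, s i → ZMod p
  hc : ∀ i x, t i = false → (w i).kd x = none → cc i x ≠ 0
  Ps : O p (ZMod p) (V w t)
  Ps2 : Ps ∈ (mx : Ideal (O p (ZMod p) (V w t))) ^ 2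
  hPs : Ps ∈ Ge p (ZMod p) ((vsV x0).mw c (La p c n)) (3 * La p c n : ℕ)
  Z : Zn (O p (ZMod p) (V w t ⊕ B w t)) κ α ι
  ok : Z.Ok
  hW : ∀ k, Z.Wt k ≤ Wm p (ZMod p) (V w t ⊕ B w t) (N0 c) k
  hμ : Z.μ = N0 c
  hγ : Z.γ ≤ 3 * c
  be : B w t → α
  be_inj : Injective be
  eps : ∀ b, Z.ε (be b) = z (inr b)
  eps0 : ∀ a, a ∉ range be → Z.ε a = 0
  hpa : ∀ b, T.pa b ≤ Z.pa (be b)
  hE : ∀ a, pz p (V w t) (B w t) (Z.E a) ∈ mx
  DE : ∀ b a, pz p (V w t) (B w t) (pd (inr b) (Z.E a)) ∈ mx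
  G2 : GA w t io Ps ∈ mx ^ 2
  Gm : ∀ q : Xm w t, pd (inl ((vsV x0).em q.1.1)) (GA w t io Ps) ∈ mx ^ 2
  iso : ∀ b b', pd (inr b) (pd (inr b') (GA w t io Ps)) ∈ mx
  hD : ∀ i b, pz p (V w t) (B w t) (pd (inr b) (GA w t io Ps)) ∈
    Ge p (ZMod p) ((vsV x0).om c i) (N1 c)
  aX : Xm w t → α
  pX : ∀ q, Z.pa (aX q) ≤ 3 * Z.γ
  J1 : ∀ a, a ∉ range be → a ∉ range aX → Z.pa a ≤ 3 * Z.γ →
    ∀ q : Xm w t, lin ((vsV x0).em q.1.1) (pz p (V w t) (B w t) (Z.E a)) = 0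
  dir : ∀ a, a ∉ range be → a ∉ range aX → pz p (V w t) (B w t) (Z.E a) ∈ (sp fun q : Xi w t =>
      pz p (V w t) (B w t) (pd (inl ((vsV x0).em q.1))
        (Ga w t cc (fun q => z (inl ((vsV x0).em q))) + GA w t io Ps))) ⊔
      (vsV x0).K c (La p c n) ⊔ Z.At0 (pz p (V w t) (B w t)) (Wm p (ZMod p) (V w t) (N0 c)) a ∨
    2 * La p c n + 3 * Z.γ ≤ Z.pa a
  id : Ga w t cc (fun q => z (inl ((vsV x0).em q))) + GA w t io Ps - ∑ a, Z.ε a * Z.E a ∈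
    Z.Rs ⊔ (vsV x0).HS c (La p c n)

namespace PVxT

variable {T : Ty w c n} {x0 : V w t} {κ α ι : Type} [Fintype α] (v : PVxT T x0 κ α ι)

/-- all weight fields are filled in -/
def toZ : PVxZ w t (N0 c) (La p c n) (V w t) (B w t) κ α ι :=
  { v with
    em := (vsV x0).em
    inj := (vsV x0).inj
    FV := (vsV x0).FV c
    hF := (vsV x0).hF
    hm := (vsV x0).hm T
    pos := T.hpos
    hLa := La_pos p c n
    om := (vsV x0).om c
    om_le := (vsV x0).om_le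
    om_em := (vsV x0).om_em
    Bad := (vsV x0).Bad c
    cheap := (vsV x0).cheap
    bad := (vsV x0).bad T
    small := (vsV x0).small T
    ob := ob c
    c := v.cc
    hPs := by rw [core_Ge, vw_V]; exact v.hPs
    hW := fun k f hf => v.hμ ▸ map_Wm pz_mx (v.hW k hf)
    N1 := N1 c
    lt1 := v.hμ ▸ T.lt1
    le1 := v.hμ ▸ le1 c
    lo := v.hμ ▸ (vsV x0).le_om
    fm := v.hμ ▸ (vsV x0).fm
    fv := v.hμ ▸ (vsV x0).fv T
    fy := v.hμ ▸ (vsV x0).fy T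
    hob := fun i b => T.hob i b v.hγ (v.hpa b)
    HS := (vsV x0).HS c (La p c n)
    K := (vsV x0).K c (La p c n)
    H := (vsV x0).H c (La p c n)
    SH := (vsV x0).SH
    SK := fun _ hr b => v.hμ ▸ (vsV x0).SKw T hr b v.hγ (v.hpa b)
    hK1 := (vsV x0).hK1
    hKq := (vsV x0).hKq T
    KK := KK_mul (La_pos p c n)
    HK := (vsV x0).HK
    H2 := (vsV x0).H2
    Hw := (vsV x0).Hw (vsV_ok x0)
    dir := fun a h1 h2 => v.hμ ▸ (v.dir a h1 h2).imp_right fun h =>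
      (vsV x0).Wm_le_K T (by omega) }

/-- **the algebra of the producer after step B, standard weights** -/
theorem vxH : ∃ u : VxH w t (N0 c) (La p c n) (V w t), ∀ al : ∀ i, s i,
    (∀ i, (w i).kd (al i) = none) → u.cub al =
      aug (pd ((vsV x0).em (⟨0, al 0⟩, !t 0)) (pd ((vsV x0).em (⟨1, al 1⟩, !t 1))
        (pd ((vsV x0).em (⟨2, al 2⟩, !t 2)) v.Ps))) := v.toZ.vxH

end PVxT

end N255.Wt

end
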