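import Crest.Agent.N255.Wt.Pz

/-!
# Row 255 (helper76): the weights on `A2 = O (Σ i, s i)` and the passage to `O (V ⊕ B)`
-/

set_option autoImplicit false
set_option linter.unusedSectionVars false

noncomputable section

namespace N255.Wt

open Finset N255.Dr N255.Dr.O Crest.Agent.N255.Tg Sum
open N255.Core (Wall Ok Xi Hi vw yi)

variable {p : ℕ} [Fact p.Prime]

section rn

variable {K : Type} [CommRing K] [Fact ((p : K) = 0)] {U U' : Type} [Fintype U] [Fintype U']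
  {F : U → ℕ} {F' : U' → ℕ} {j : U → U'} {f : O p K U} {La μ n : ℕ}

theorem rn_z_Ge (h : ∀ x, F x ≤ F' (j x)) (x : U) : rn j (z x : O p K U) ∈ Ge p K F' (F x) := by
  rw [rn_z]; exact (flt_Ge F').anti (by have := h x; omega) (z_mem_Ge F' _)

theorem rn_z_mx (x : U) : rn j (z x : O p K U) ∈ mx := by rw [rn_z]; exact z_mem _

theorem rn_Ge (h : ∀ x, F x ≤ F' (j x)) {a : ℤ} (hf : f ∈ Ge p K F a) : rn j f ∈ Ge p K F' a :=
  map_Ge (flt_Ge _) (rn_z_Ge h) hf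

theorem rn_HH (h : ∀ x, F x ≤ F' (j x)) (hf : f ∈ HH p K F La) : rn j f ∈ HH p K F' La :=
  map_HH rn_z_mx (rn_z_Ge h) hf

theorem rn_KK (h : ∀ x, F x ≤ F' (j x)) (hf : f ∈ KK p K F La) : rn j f ∈ KK p K F' La :=
  map_KK rn_z_mx (rn_z_Ge h) hf

theorem rn_Wm (hf : f ∈ Wm p K U μ n) : rn j f ∈ Wm p K U' μ n := map_Wm rn_z_mx hf

theorem KK_mul_mx (h : ∀ v, n ≤ F v) {k : ℕ} (hk : 1 ≤ k) (hL : La < n * k) :
    KK p K F La * mx ^ k ≤ HH p K F La :=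
  le_inf ((Ideal.mul_mono_left inf_le_left).trans (by
    rw [← pow_add]; exact Ideal.pow_le_pow_right (by omega)))
    ((flt_Ge F).mul_le inf_le_right (mx_pow_le h k) (by omega))

theorem pow_le_KK (h : ∀ v, n ≤ F v) {k : ℕ} (h2 : 2 ≤ k) (hk : 2 * La ≤ n * k) :
    (mx : Ideal (O p K U)) ^ k ≤ KK p K F La :=
  le_inf (Ideal.pow_le_pow_right h2) (mx_pow_le' h (by omega))

/-- `N * N ≤ K` and `mx * N ^ 3 ≤ H` for `N` of weight `La` -/
theorem mx_sq_le_KK {N : Ideal (O p K U)} (h : N ≤ mx) (h' : N ≤ Ge p K F La) :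
    N * N ≤ KK p K F La :=
  le_inf (by rw [sq]; exact Ideal.mul_mono h h) ((flt_Ge F).mul_le h' h' (by omega))

theorem mx_cube_le_HH (h0 : ∀ v, 1 ≤ F v) {N : Ideal (O p K U)} (h : N ≤ mx)
    (h' : N ≤ Ge p K F La) : mx * N ^ 3 ≤ HH p K F La := by
  refine le_inf (Ideal.mul_le_right.trans (Ideal.pow_right_mono h 3)) ?_
  rw [pow_succ, sq]
  exact (flt_Ge F).mul_le (mx_le h0) ((flt_Ge F).mul_le (k := 3 * La)
    ((flt_Ge F).mul_le (k := 2 * La) h' h' (by omega)) h' (by omega)) (by omega)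

end rn

variable {Γ : Type} [AddCommGroup Γ] {δ : Γ} {s : Fin 3 → Type} [∀ i, Fintype (s i)]

/-- the inclusion of the wall variables into `V ⊕ B` -/
def cq (w : ∀ i, Wall p Γ δ (s i)) (t : Fin 3 → Bool) (q : Σ i, s i) : V w t ⊕ B w t :=
  cp w t q.1 q.2

/-- the passage `A2 → O (V ⊕ B)` -/
abbrev kap (w : ∀ i, Wall p Γ δ (s i)) (t : Fin 3 → Bool) :
    O p (ZMod p) (Σ i, s i) →ₐ[ZMod p] O p (ZMod p) (V w t ⊕ B w t) := rn (cq w t)

open Classical in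
/-- the pure weight on `Σ i, s i`: far variables get `+ 1` -/
def F2 (w : ∀ i, Wall p Γ δ (s i)) (t : Fin 3 → Bool) (c : ℕ) (q : Σ i, s i) : ℕ :=
  N0 c + (w q.1).F q.2 + if (w q.1).kd q.2 = some (!t q.1) then 1 else 0

/-- the weight of slot `i` on `Σ i, s i` -/
def o2 (w : ∀ i, Wall p Γ δ (s i)) (t : Fin 3 → Bool) (c : ℕ) (i : Fin 3) (q : Σ i, s i) : ℕ :=
  if q.1 = i then F2 w t c q else min (F2 w t c q) (N1 c)

/-- the main weight on `Σ i, s i` -/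
def m2 (w : ∀ i, Wall p Γ δ (s i)) (t : Fin 3 → Bool) (c La : ℕ) (q : Σ i, s i) : ℕ :=
  if (w q.1).kd q.2 = none then La else F2 w t c q

/-- the negligible terms of `A2` -/
abbrev H2 (w : ∀ i, Wall p Γ δ (s i)) (t : Fin 3 → Bool) (c La : ℕ) :
    Ideal (O p (ZMod p) (Σ i, s i)) := HH p (ZMod p) (m2 w t c La) La

/-- the derivatives of the negligible terms of `A2` -/
abbrev K2 (w : ∀ i, Wall p Γ δ (s i)) (t : Fin 3 → Bool) (c La : ℕ) :
    Ideal (O p (ZMod p) (Σ i, s i)) := KK p (ZMod p) (m2 w t c La) La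

variable {w : ∀ i, Wall p Γ δ (s i)} {t : Fin 3 → Bool} {c n La : ℕ}

theorem cq_far {q : Σ i, s i} (h : (w q.1).kd q.2 = some (!t q.1)) : cq w t q = inr ⟨q, h⟩ :=
  cp_far h

theorem cq_b (b : B w t) : cq w t b.1 = inr b := cq_far b.2

theorem cq_near (x0 : V w t) {q : Σ i, s i} (h : (w q.1).kd q.2 ≠ some (!t q.1)) :
    cq w t q = inl ((vsV x0).em (q, false)) := cp_near x0 h

theorem cq_near' {q : Σ i, s i} (h : (w q.1).kd q.2 ≠ some (!t q.1)) :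
    cq w t q = inl ⟨(q, false), ok_ne h⟩ := dif_neg h

theorem cq_y (x0 : V w t) {i : Fin 3} {y : s i} (h : (w i).kd y = none) :
    cq w t ⟨i, y⟩ = inl ((vsV x0).em (⟨i, y⟩, false)) := cp_near x0 (by simp [h])

theorem cq_inj : Function.Injective (cq w t) := fun q q' e => by
  by_cases h : (w q.1).kd q.2 = some (!t q.1) <;> by_cases h' : (w q'.1).kd q'.2 = some (!t q'.1)
  · rw [cq_far h, cq_far h'] at e; exact congrArg Subtype.val (inr_injective e)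
  · rw [cq_far h, cq_near' h'] at e; cases e
  · rw [cq_near' h, cq_far h'] at e; cases e
  · rw [cq_near' h, cq_near' h'] at e
    exact congrArg Prod.fst (congrArg Subtype.val (inl_injective e))

theorem cq_ne {x : V w t} (h : x.1.2 = true) : inl x ∉ Set.range (cq w t) := by
  rintro ⟨q, e⟩
  by_cases h' : (w q.1).kd q.2 = some (!t q.1)
  · rw [cq_far h'] at e; cases e
  · rw [cq_near' h'] at e; cases e; simp at h

theorem cq_m (x0 : V w t) (q : Xm w t) : inl ((vsV x0).em q.1.1) ∉ Set.range (cq w t) := by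
  rw [vsV_em x0 (xi_ok q.1)]; exact cq_ne q.2

/-- every variable of `V ⊕ B` is a wall variable or an `m` -/
theorem cq_or (x0 : V w t) (u : V w t ⊕ B w t) :
    u ∈ Set.range (cq w t) ∨ ∃ q : Xm w t, u = inl ((vsV x0).em q.1.1) := by
  rcases u with ⟨⟨q, b⟩, h | h⟩ | b
  · obtain rfl : b = false := h.1
    exact Or.inl ⟨q, cq_near' h.2⟩
  · exact Or.inr ⟨⟨⟨(q, b), h.2⟩, h.1⟩, by rw [vsV_em x0 (Or.inr h)]⟩
  · exact Or.inl ⟨b.1, cq_b b⟩

theorem FA_cq (x0 : V w t) (q : Σ i, s i) : (vsV x0).FA c (cq w t q) = F2 w t c q := by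
  unfold F2
  split_ifs with h
  · rw [cq_far h]; rfl
  · rw [cq_near' h]; rfl

theorem oA_cq (x0 : V w t) (i : Fin 3) (q : Σ i, s i) :
    (vsV x0).oA c i (cq w t q) = o2 w t c i q := by
  unfold o2 F2
  by_cases h : (w q.1).kd q.2 = some (!t q.1)
  · rw [cq_far h, if_pos h]; rfl
  · rw [cq_near' h, if_neg h]; rfl

theorem mA_cq (x0 : V w t) (q : Σ i, s i) : (vsV x0).mA c La (cq w t q) = m2 w t c La q := by
  unfold m2 F2
  by_cases h : (w q.1).kd q.2 = some (!t q.1)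
  · rw [cq_far h, if_pos h, if_neg (by simp [h])]; rfl
  · rw [cq_near' h, if_neg h]; rfl

theorem F2_near {i : Fin 3} {x : s i} (h : (w i).kd x ≠ some (!t i)) :
    F2 w t c ⟨i, x⟩ = N0 c + (w i).F x := by rw [F2, if_neg h, add_zero]

theorem F2_far {i : Fin 3} {x : s i} (h : (w i).kd x = some (!t i)) :
    F2 w t c ⟨i, x⟩ = N0 c + (w i).F x + 1 := by rw [F2, if_pos h]

theorem le_F2 (q : Σ i, s i) : N0 c + (w q.1).F q.2 ≤ F2 w t c q := Nat.le_add_right _ _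

theorem F2_le (q : Σ i, s i) : F2 w t c q ≤ N0 c + (w q.1).F q.2 + 1 := by
  unfold F2; split_ifs <;> omega

theorem o2_own (i : Fin 3) (x : s i) : o2 w t c i ⟨i, x⟩ = F2 w t c ⟨i, x⟩ := if_pos rfl

theorem o2_ne {i : Fin 3} {q : Σ i, s i} (h : q.1 ≠ i) :
    o2 w t c i q = min (F2 w t c q) (N1 c) := if_neg h

theorem o2_near {i : Fin 3} {x : s i} (h : (w i).kd x ≠ some (!t i)) :
    o2 w t c i ⟨i, x⟩ = N0 c + (w i).F x := by rw [o2_own, F2_near h]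

theorem o2_far {i : Fin 3} {x : s i} (h : (w i).kd x = some (!t i)) :
    o2 w t c i ⟨i, x⟩ = N0 c + (w i).F x + 1 := by rw [o2_own, F2_far h]

theorem le_o2_own (i : Fin 3) (x : s i) : N0 c + (w i).F x ≤ o2 w t c i ⟨i, x⟩ := by
  rw [o2_own]; exact le_F2 ⟨i, x⟩

theorem o2_le (i : Fin 3) (q : Σ i, s i) : o2 w t c i q ≤ F2 w t c q := by
  unfold o2; split_ifs <;> omega

theorem min_le_o2 (i : Fin 3) (q : Σ i, s i) : min (F2 w t c q) (N1 c) ≤ o2 w t c i q := by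
  unfold o2; split_ifs <;> omega

theorem le_o2 (i : Fin 3) (q : Σ i, s i) : N0 c ≤ o2 w t c i q := by
  have := min_le_o2 (w := w) (t := t) (c := c) i q
  have := le_F2 (w := w) (t := t) (c := c) q
  unfold N0 N1 at *
  omega

theorem m2_y {i : Fin 3} {y : s i} (h : (w i).kd y = none) : m2 w t c La ⟨i, y⟩ = La := if_pos h

theorem m2_ne {i : Fin 3} {x : s i} (h : (w i).kd x ≠ none) :
    m2 w t c La ⟨i, x⟩ = F2 w t c ⟨i, x⟩ := if_neg h

theorem Ty.F2_le_m2 (T : Ty w c n) (q : Σ i, s i) : F2 w t c q ≤ m2 w t c (Wt.La p c n) q := by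
  unfold m2
  split_ifs with h
  · rw [F2, if_neg (by simp [h]), add_zero, T.F_y h]; exact (N1_lt_La p c n).le
  · rfl

theorem Ty.o2_le_m2 (T : Ty w c n) (i : Fin 3) (q : Σ i, s i) :
    o2 w t c i q ≤ m2 w t c (Wt.La p c n) q := (o2_le i q).trans (T.F2_le_m2 q)

theorem Ty.le_m2 (T : Ty w c n) (q : Σ i, s i) : N0 c ≤ m2 w t c (Wt.La p c n) q :=
  (le_o2 0 q).trans (T.o2_le_m2 0 q)

theorem Ty.pow_le_H2 (T : Ty w c n) {k : ℕ} (hk : Wt.La p c n ≤ k) :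
    (mx : Ideal (O p (ZMod p) (Σ i, s i))) ^ k ≤ H2 w t c (Wt.La p c n) := by
  have h1 := N1_lt_La p c n
  have h2 := T.pos
  have h3 : 120 * Wt.La p c n ≤ N0 c * k := Nat.mul_le_mul (by unfold N0; omega) hk
  exact pow_le_HH T.le_m2 (by unfold N1 at h1; omega) (by omega)

theorem Ty.Wm_le_H2 (T : Ty w c n) {a : ℕ} (ha : 3 * Wt.La p c n < a) :
    Wm p (ZMod p) (Σ i, s i) (N0 c) a ≤ H2 w t c (Wt.La p c n) :=
  Wm_le_HH T.le_m2 T.N0_pos (by have := N1_lt_La p c n; unfold N0 N1 at *; omega) ha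

variable {f : O p (ZMod p) (Σ i, s i)}

theorem kap_o (x0 : V w t) {i : Fin 3} {a : ℤ} (h : f ∈ Ge p (ZMod p) (o2 w t c i) a) :
    kap w t f ∈ Ge p (ZMod p) ((vsV x0).oA c i) a := rn_Ge (fun q => (oA_cq x0 i q).ge) h

theorem kap_F (x0 : V w t) {a : ℤ} (h : f ∈ Ge p (ZMod p) (F2 w t c) a) :
    kap w t f ∈ Ge p (ZMod p) ((vsV x0).FA c) a := rn_Ge (fun q => (FA_cq x0 q).ge) h

theorem kap_m (x0 : V w t) {a : ℤ} (h : f ∈ Ge p (ZMod p) (m2 w t c La) a) :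
    kap w t f ∈ Ge p (ZMod p) ((vsV x0).mA c La) a := rn_Ge (fun q => (mA_cq x0 q).ge) h

theorem kap_H (x0 : V w t) (h : f ∈ H2 w t c La) : kap w t f ∈ (vsV x0).HS c La :=
  rn_HH (fun q => (mA_cq x0 q).ge) h

theorem kap_K (x0 : V w t) (h : f ∈ K2 w t c La) : kap w t f ∈ (vsV x0).KS c La :=
  rn_KK (fun q => (mA_cq x0 q).ge) h

theorem kap_hi (x0 : V w t) {i : Fin 3} {a : ℕ} (h : Hi (o2 w t c i) a f) :
    Hi ((vsV x0).oA c i) a (kap w t f) := hi_Ge.2 (kap_o x0 (hi_Ge.1 h))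

theorem pd_kap (q : Σ i, s i) (f : O p (ZMod p) (Σ i, s i)) :
    pd (cq w t q) (kap w t f) = kap w t (pd q f) := pd_rn cq_inj q f

theorem pd_b_kap (b : B w t) (f : O p (ZMod p) (Σ i, s i)) :
    pd (inr b) (kap w t f) = kap w t (pd b.1 f) := by rw [← cq_b, pd_kap]

theorem pd_m_kap (x0 : V w t) (q : Xm w t) (f : O p (ZMod p) (Σ i, s i)) :
    pd (inl ((vsV x0).em q.1.1)) (kap w t f) = 0 := pd_rn_not (cq_m x0 q) f

theorem kap_z_near (x0 : V w t) {i : Fin 3} {x : s i} (h : (w i).kd x ≠ some (!t i)) :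
    kap w t (z ⟨i, x⟩) = z (inl ((vsV x0).em (⟨i, x⟩, false))) := by
  rw [rn_z, cq_near x0 (q := ⟨i, x⟩) h]

theorem kap_z_b (b : B w t) : kap w t (z b.1) = z (inr b) := by rw [rn_z, cq_b]

end N255.Wt

end
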