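import Crest.Agent.N255.Wt.Vb
import Crest.Agent.N255.Tg.PZ

/-!
# Row 255 (helper76): the weight fields of `PVxZ`; doubling of positions
-/

set_option autoImplicit false
set_option linter.unusedSectionVars false

noncomputable section

namespace N255.Sl.Zn

variable {A κ α ι : Type*} [CommRing A]

/-- positions are doubled (weights are even) -/
def dbl (Z : Zn A κ α ι) (Wt : ℕ → Ideal A) (μ : ℕ) : Zn A κ α ι :=
  { Z with Wt := Wt, μ := μ, γ := 2 * Z.γ, pos := fun k => 2 * Z.pos k, pa := fun a => 2 * Z.pa a }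

variable {Z : Zn A κ α ι} {Wt : ℕ → Ideal A} {μ : ℕ}

theorem dbl_Qd : (Z.dbl Wt μ).Qd = Z.Qd := rfl

theorem dbl_Eps : (Z.dbl Wt μ).Eps = Z.Eps := rfl

theorem iSup₂_imp {β : Type*} {P Q : β → Prop} (f : β → Ideal A) (h : ∀ a, P a → Q a) :
    ⨆ (a) (_ : P a), f a ≤ ⨆ (a) (_ : Q a), f a :=
  iSup₂_le fun a ha => le_iSup₂_of_le (f := fun a (_ : Q a) => f a) a (h a ha) le_rfl

theorem Ok.dbl (h : Z.Ok) (fl : Fl Wt) (mle : Z.m ≤ Wt μ) (gap : 6 * Z.γ < μ) :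
    (Z.dbl Wt μ).Ok := by
  refine ⟨fl, h.nil, mle, show 3 * (2 * Z.γ) < μ by omega, fun k => (h.hI k).trans ?_,
    fun k => (h.hE1 k).trans ?_, fun k (hk : 2 * Z.γ < 2 * Z.pos k) => (h.hE2 k (by omega)).trans ?_⟩
  · exact sup_le_sup_left (iSup₂_imp (Q := fun a => 2 * Z.pos k ≤ 2 * Z.pa a + 2 * Z.γ) _
      fun a ha => by omega) _
  · exact sup_le_sup (iSup₂_imp (Q := fun a => 2 * Z.pa a ≤ 2 * Z.pos k + 2 * Z.γ) _
      fun a ha => by omega) (Ideal.mul_mono_right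
        (iSup₂_imp (Q := fun k' => 2 * Z.pos k' ≤ 2 * Z.pos k + 2 * Z.γ) _ fun a ha => by omega))
  · exact sup_le_sup_left (Ideal.mul_mono_right (iSup₂_imp (Q := fun k' =>
      2 * Z.pos k ≤ 2 * Z.pos k' + 2 * Z.γ ∧ (Z.sl k' = Z.sl k ∨ 2 * Z.pos k' ≤ 2 * Z.γ)) _
        fun a ha => ⟨by omega, ha.2.imp_right (by omega)⟩)) _

end N255.Sl.Zn

namespace N255.Wt

open Finset N255.Dr N255.Dr.O Crest.Agent.N255.Tg Sum
open N255.Core (Wall Ok Xi Hi vw yi)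

variable {p : ℕ} [Fact p.Prime]

section adic

variable {K : Type} [CommRing K] [Fact ((p : K) = 0)] {U : Type} [Fintype U] {F : U → ℕ}
  {μ n k La : ℕ}

theorem Wm_le_Ge (h : ∀ v, μ ≤ F v) {a : ℤ} (ha : a ≤ n) : Wm p K U μ n ≤ Ge p K F a :=
  Ge_mono h ha

theorem Wm_le_pow (h : μ * k < n + μ) (hμ : 0 < μ) :
    Wm p K U μ n ≤ (mx : Ideal (O p K U)) ^ k := by
  refine Ideal.span_le.2 ?_
  rintro _ ⟨a, ha, rfl⟩
  refine Ideal.pow_le_pow_right ?_ (zm_mem_pow a)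
  rw [wt, ← sum_mul] at ha
  have h1 : μ * k < μ * (∑ v, a v + 1) := by
    rw [mul_add, mul_comm μ (∑ v, a v)]; omega
  exact Nat.lt_succ_iff.1 (Nat.lt_of_mul_lt_mul_left h1)

theorem pow_le_Wm (h : n ≤ μ * k) : (mx : Ideal (O p K U)) ^ k ≤ Wm p K U μ n :=
  mx_pow_le' (fun _ => le_rfl) (by omega)

theorem Wm_le_KK (h : ∀ v, μ ≤ F v) (hμ : 0 < μ) (h1 : μ < n) (h2 : 2 * La ≤ n) :
    Wm p K U μ n ≤ KK p K F La := le_inf (Wm_le_pow (by omega) hμ) (Wm_le_Ge h (by omega))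

theorem Wm_le_HH (h : ∀ v, μ ≤ F v) (hμ : 0 < μ) (h1 : 2 * μ < n) (h2 : 3 * La < n) :
    Wm p K U μ n ≤ HH p K F La := le_inf (Wm_le_pow (by omega) hμ) (Wm_le_Ge h (by omega))

theorem pd_HH' {f : O p K U} (h : f ∈ HH p K F La) (x : U) :
    pd x f ∈ (mx : Ideal (O p K U)) ^ 2 ⊓ Ge p K F (3 * La + 1 - F x) :=
  ⟨pd_mem_pow h.1 x, pd_Ge h.2 x⟩

theorem map_HH {U' : Type} [Fintype U'] {F' : U' → ℕ} {ψ : O p K U →ₐ[K] O p K U'}
    (h : ∀ v, ψ (z v) ∈ mx) (h' : ∀ v, ψ (z v) ∈ Ge p K F' (F v)) {f : O p K U}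
    (hf : f ∈ HH p K F La) : ψ f ∈ HH p K F' La :=
  ⟨map_mx_pow ψ h hf.1, map_Ge (flt_Ge _) h' hf.2⟩

theorem map_KK {U' : Type} [Fintype U'] {F' : U' → ℕ} {ψ : O p K U →ₐ[K] O p K U'}
    (h : ∀ v, ψ (z v) ∈ mx) (h' : ∀ v, ψ (z v) ∈ Ge p K F' (F v)) {f : O p K U}
    (hf : f ∈ KK p K F La) : ψ f ∈ KK p K F' La :=
  ⟨map_mx_pow ψ h hf.1, map_Ge (flt_Ge _) h' hf.2⟩

end adic

variable {Γ : Type} [AddCommGroup Γ] {δ : Γ} {s : Fin 3 → Type} [∀ i, Fintype (s i)]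
  {w : ∀ i, Wall p Γ δ (s i)} {t : Fin 3 → Bool} {c n : ℕ}

theorem Ty.lt1 (T : Ty w c n) : N0 c < N1 c := by have := T.pos; unfold N0 N1; omega

theorem le1 (c : ℕ) : N1 c ≤ 2 * N0 c := by unfold N0 N1; omega

theorem Ty.N0_pos (T : Ty w c n) : 0 < N0 c := by have := T.pos; unfold N0; omega

theorem Ty.gap (T : Ty w c n) {γ : ℕ} (h : γ ≤ 3 * c) : 3 * γ < N0 c := by
  have := T.pos; unfold N0; omega

theorem Ty.F_pos (T : Ty w c n) (i : Fin 3) (x : s i) : 2 ≤ (w i).F x := by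
  rw [T.F]; exact Sg.F_pos (by have := T.pos; omega) x

theorem Ty.hpos (T : Ty w c n) (i : Fin 3) (x : s i) : 0 < N0 c + (w i).F x := by
  have := T.F_pos i x; omega

theorem Ty.hob (T : Ty w c n) (i : Fin 3) (b : B w t) {γ a : ℕ} (hγ : γ ≤ 3 * c)
    (ha : T.pa b ≤ a) : ob c i b ≤ N1 c + (a - 3 * γ) := by
  have := T.FB_le b hγ
  have := ob_le (c := c) i b
  omega

namespace Vs

variable {U : Type} [Fintype U] (u : Vs w t U)

theorem fm (q : Xm w t) : u.FV c (u.em q.1.1) ≤ N0 c := by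
  rw [u.FV_em (xi_ok q.1), FQ, if_pos q.2]

theorem fv (T : Ty w c n) (v : U) (h : ∀ q : Xm w t, v ≠ u.em q.1.1) : N0 c < u.FV c v := by
  unfold FV FQ
  split_ifs with h1
  · have h2 := u.al v h1
    exact absurd (u.em_val (Or.inr ⟨h1, h2⟩)).symm (h ⟨⟨u.val v, h2⟩, h1⟩)
  · have := T.F_pos (u.val v).1.1 (u.val v).1.2; omega

theorem fy (T : Ty w c n) (q : Xi w t) : u.FV c (u.em q.1) < 2 * N0 c := by
  have := u.FV_xi T q
  have := T.pos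
  unfold N0 N1 at *
  omega

theorem hK1 {La : ℕ} (i : Fin 3) : u.K c La ≤ Ge p (ZMod p) (u.om c i) (N1 c) :=
  u.hK0.trans (iInf_le _ i)

/-- the negligible terms over all variables -/
abbrev HS (c La : ℕ) : Ideal (O p (ZMod p) (U ⊕ B w t)) := HH p (ZMod p) (u.mA c La) La

/-- the derivatives of negligible terms over all variables -/
abbrev KS (c La : ℕ) : Ideal (O p (ZMod p) (U ⊕ B w t)) := KK p (ZMod p) (u.mA c La) La

theorem pz_Ge {La : ℕ} (x : U ⊕ B w t) :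
    pz p U (B w t) (z x) ∈ Ge p (ZMod p) (u.mw c La) (u.mA c La x) := by
  rcases x with x | b
  · rw [pz_inl]; exact z_mem_Ge _ x
  · rw [pz_inr]; exact zero_mem _

theorem SH {La : ℕ} (r : O p (ZMod p) (U ⊕ B w t)) (h : r ∈ u.HS c La) :
    pz p U (B w t) r ∈ u.H c La := map_HH pz_mx u.pz_Ge h

theorem SK' {La : ℕ} (r : O p (ZMod p) (U ⊕ B w t)) (h : r ∈ u.KS c La) :
    pz p U (B w t) r ∈ u.K c La := map_KK pz_mx u.pz_Ge h

/-- the weighted form of `SK` -/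
theorem SKw (T : Ty w c n) {r : O p (ZMod p) (U ⊕ B w t)} (h : r ∈ u.HS c (La p c n)) (b : B w t)
    {γ a : ℕ} (hγ : γ ≤ 3 * c) (ha : T.pa b ≤ a) :
    Wm p (ZMod p) U (N0 c) (a - 3 * γ) * Ideal.span {pz p U (B w t) (pd (inr b) r)} ≤
      u.K c (La p c n) := by
  have h1 := pd_HH' h (inr b)
  have h2 := T.FB_le b hγ
  have h3 := N1_lt_La p c n
  refine le_inf (Ideal.mul_le_right.trans ((Ideal.span_singleton_le_iff_mem _).2
    (map_mx_pow _ pz_mx h1.1))) ((flt_Ge _).mul_le (Wm_le_Ge (u.le_mw T) le_rfl)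
      ((Ideal.span_singleton_le_iff_mem _).2 (map_Ge (flt_Ge _) u.pz_Ge h1.2)) ?_)
  simp only [Sum.elim_inr]
  omega

theorem Wm_le_K (T : Ty w c n) {a : ℕ} (ha : 2 * La p c n ≤ a) :
    Wm p (ZMod p) U (N0 c) a ≤ u.K c (La p c n) :=
  Wm_le_KK (u.le_mw T) T.N0_pos (by have := N1_lt_La p c n; have := T.lt1; omega) ha

theorem pow_le_HS (T : Ty w c n) {k : ℕ} (hk : La p c n ≤ k) :
    (mx : Ideal (O p (ZMod p) (U ⊕ B w t))) ^ k ≤ u.HS c (La p c n) := by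
  have h1 := N1_lt_La p c n
  have h2 := T.pos
  have h3 : 120 * La p c n ≤ N0 c * k := Nat.mul_le_mul (by unfold N0; omega) hk
  exact pow_le_HH (u.le_mA T) (by unfold N1 at h1; omega) (by omega)

end Vs

end N255.Wt

end
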